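import Vale.Agent.P073.H73.MidAsm
import Vale.Agent.P073.H407.Mid1
import Vale.Agent.P073.AB.Sum308b

/-!
# P073, block A16, [ROWDATA] (helper247)

The output of the face theorem on the middle plane is `RowData`.
-/

namespace Vale.Agent.P073.H247

open MeasureTheory Set Filter Topology Metric Vale.Agent.P073.St Vale.Agent.P073.AB
open Vale.Agent.P073.AB.P86
open Vale.Agent.P073.H235
open Vale.Agent.P073.SQ (ev cube)
open Vale.Agent.P073.H73 (MinEdge segP onSeg ctr sharpY SpecRowData norm_segP)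
open Vale.Agent.P073.H407 (mem_rect minEdge_of_rect deep_of_free rect_sub rect_size)
open _root_.P073 (ConHomeo)
open _root_.P073.Net (len dyc dyo IsTile SizeFn)
open scoped ENNReal

variable {p C θ ν τ ε δ : ℝ} {Λ : Set V} {f : V → V}

/-- the tile of generation `mt` which contains `h x` -/
theorem exists_tile (P : PreFlat p C θ ν τ ε δ Λ f) {k : Fin 3 → ℤ} (hk : k ∈ rect P.a P.b)
    {x : V} (hx : x ∈ squ P.v ((P.nS, k), 2)) :
    ∃ z : Fin 3 → ℤ, IsTile P.ρ 0 P.mt z ∧ P.h.toFun x ∈ dyc 0 P.mt z := by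
  have hm : (0:ℝ) < 2 ^ P.mt := by positivity
  set y := P.h.toFun x with hy
  refine ⟨fun j => ⌊y j * 2 ^ P.mt⌋, ?_, ?_⟩
  · refine P.tile k hk x hx _ ⟨y, ?_, ?_⟩
    · intro j
      simp only [Pi.zero_apply, zero_add]
      rw [div_le_iff₀ hm, le_div_iff₀ hm]
      exact ⟨Int.floor_le _, (Int.lt_floor_add_one _).le⟩
    · rw [hy, sub_self, norm_zero]; positivity
  · intro j
    simp only [Pi.zero_apply, zero_add]
    rw [div_le_iff₀ hm, le_div_iff₀ hm]
    exact ⟨Int.floor_le _, (Int.lt_floor_add_one _).le⟩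

theorem dist_center (P : PreFlat p C θ ν τ ε δ Λ f) {m : ℕ} {z : Fin 3 → ℤ}
    (hz : IsTile P.ρ 0 m z) {y : V} (hy : y ∈ dyc 0 m z) : ‖y - P.c m z‖ ≤ 1 / 2 ^ m := by
  have hm : (0:ℝ) < 2 ^ m := by positivity
  have h1 := P.cmem m z hz
  have h2 : ‖y - ctr 0 m z‖ ≤ 1 / 2 / 2 ^ m := by
    rw [pi_norm_le_iff_of_nonneg (by positivity)]
    intro j
    obtain ⟨h3, h4⟩ := hy j
    simp only [Pi.zero_apply, zero_add] at h3 h4
    simp only [ctr, Pi.sub_apply, Pi.zero_apply, zero_add, Real.norm_eq_abs]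
    rw [div_le_iff₀ hm] at h3
    rw [le_div_iff₀ hm] at h4
    have e : y j - (z j + 1 / 2) / 2 ^ m = (y j * 2 ^ m - (z j + 1 / 2)) / 2 ^ m := by
      field_simp
    rw [e, abs_div, abs_of_pos hm]
    gcongr
    rw [abs_le]
    constructor <;> linarith
  have e : y - P.c m z = (y - ctr 0 m z) - (P.c m z - ctr 0 m z) := by abel
  rw [e]
  refine (norm_sub_le _ _).trans ((add_le_add h2 h1).trans ?_)
  rw [← add_div]
  gcongr
  norm_num

/-- **[ROWDATA]** -/
theorem specRowData (p : ℝ) : SpecRowData p := by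
  intro C θ ν τ ε δ Λ f P D μ D' r c ε₀ β g hO hD hDD hc hδc hεε hβ
  have hε : ENNReal.ofReal ε ≤ ENNReal.ofReal ε₀ := ENNReal.ofReal_le_ofReal hεε
  have hD' : 0 < D' := by linarith
  have hmt : (0:ℝ) < 2 ^ P.mt := by positivity
  refine ⟨fun i hi => ⟨P.alt i hi, rect_size P hi⟩, fun k hk => rect_sub P hk, P.Gsub,
    P.mtε.trans hεε, P.near, P.close.trans hε, ?_, ?_, ?_, ?_, P.area.trans hε, P.bad.trans hε,
    P.good⟩
  · -- osc
    intro k hk x hx y hy
    obtain ⟨z, hz, hxz⟩ := exists_tile P hk hx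
    have h1 := (P.cond _ (P.minS k hk) x hx P.mt z hz hxz).2 y hy
    have h2 := dist_center P hz hxz
    have h3 : 0 ≤ ‖P.h.toFun x - P.c P.mt z‖ := norm_nonneg _
    calc ‖P.h.toFun x - P.h.toFun y‖ ≤ δ * ‖P.h.toFun x - P.c P.mt z‖ := h1
      _ ≤ c * (1 / 2 ^ P.mt) := mul_le_mul hδc h2 h3 hc.le
      _ = c / 2 ^ P.mt := by ring
  · -- app
    intro k hk x hx
    obtain ⟨z, hz, hxz⟩ := exists_tile P hk hx
    refine (hO.close _ (P.minS k hk) x hx P.mt z hz hxz).trans ?_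
    gcongr
  · -- tv
    intro k hkG hF e he
    have hk := P.Gsub hkG
    -- c ≤ 1/2
    have hc1 : c ≤ 1 := by
      obtain ⟨z₀, hz₀⟩ := hF
      have hxs : pt P.v P.nS k ∈ squ P.v ((P.nS, k), 2) := by
        refine ⟨rfl, fun j _ => ⟨le_rfl, ?_⟩⟩
        show P.v j + (k j : ℝ) / 2 ^ P.nS ≤ P.v j + (k j + 1) / 2 ^ P.nS
        gcongr
        linarith
      obtain ⟨h1, h2⟩ := hz₀ _ hxs 0 (by decide)
      have h3 := h1.trans h2
      rw [div_le_div_iff_of_pos_right hmt] at h3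
      linarith
    obtain ⟨z, hz⟩ := deep_of_free P (hδc.trans hc1) hc.le hk hkG hF
    have hme := minEdge_of_rect P hk he
    have hes : edge P.v e ⊆ squ P.v ((P.nS, k), 2) := AB.S308.edge_sub_squ he
    have h1 := hO.tv e hme (Finset.univ.erase 2) ⟨0, by decide⟩ (by decide) P.mt z (hz _ hes)
    refine h1.trans ?_
    gcongr
    have h2 := (hβ e).2
    have h3 : e.1.1 = P.nS := he.1
    rwa [h3] at h2
  · -- disp
    intro k hk e he
    have hme := minEdge_of_rect P hk he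
    have hes : edge P.v e ⊆ squ P.v ((P.nS, k), 2) := AB.S308.edge_sub_squ he
    have h3 : e.1.1 = P.nS := he.1
    have hle : P.ℓ e + ENNReal.ofReal (ε₀ / 2 ^ P.nS) ≤
        ∑' e' : {e' : Idx × Fin 3 // EdgeOfSq e' ((P.nS, k), 2)},
          (P.ℓ e'.1 + ENNReal.ofReal (ε₀ / 2 ^ P.nS)) :=
      ENNReal.le_tsum (f := fun e' : {e' : Idx × Fin 3 // EdgeOfSq e' ((P.nS, k), 2)} =>
        P.ℓ e'.1 + ENNReal.ofReal (ε₀ / 2 ^ P.nS)) ⟨e, he⟩
    refine le_trans ?_ (mul_le_mul_right hle _)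
    by_cases htop : P.ℓ e = ⊤
    · rw [htop, top_add, ENNReal.mul_top (by simpa using hD')]
      exact le_top
    have hl : (segP P.v e).1 ∈ edge P.v e := left_mem_segment ℝ _ _
    have hr : (segP P.v e).2 ∈ edge P.v e := right_mem_segment ℝ _ _
    have h4 := hO.elip _ (P.minS k hk) e hme hes htop _ hr _ hl
    rw [norm_segP] at h4
    have h2e : (0:ℝ) < 2 ^ e.1.1 := by positivity
    have hβ0 := (hβ e).1
    have hβ1 := (hβ e).2
    have hℓ0 : 0 ≤ (P.ℓ e).toReal := ENNReal.toReal_nonneg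
    obtain ⟨Q, hQD, h4⟩ : ∃ Q : ℝ, Q ≤ D' ∧ ‖g.toFun (segP P.v e).2 - g.toFun (segP P.v e).1‖ ≤
        Q * (((P.ℓ e).toReal + β e) * 2 ^ e.1.1) * (1 / 2 ^ e.1.1) :=
      ⟨_, by split_ifs <;> linarith, h4⟩
    have h5 : ‖g.toFun (segP P.v e).2 - g.toFun (segP P.v e).1‖ ≤
        D' * ((P.ℓ e).toReal + ε₀ / 2 ^ P.nS) := by
      refine h4.trans ?_
      have e1 : Q * (((P.ℓ e).toReal + β e) * 2 ^ e.1.1) * (1 / 2 ^ e.1.1) =
          Q * ((P.ℓ e).toReal + β e) := by field_simp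
      rw [e1]
      have h6 : (P.ℓ e).toReal + β e ≤ (P.ℓ e).toReal + ε₀ / 2 ^ P.nS := by
        rw [h3] at hβ1; linarith
      exact mul_le_mul hQD h6 (by positivity) hD'.le
    refine (ENNReal.ofReal_le_ofReal h5).trans ?_
    have hε0 : 0 ≤ ε₀ / 2 ^ P.nS := by rw [h3] at hβ1; linarith
    rw [ENNReal.ofReal_mul hD'.le, ENNReal.ofReal_add hℓ0 hε0, ENNReal.ofReal_toReal htop]

end Vale.Agent.P073.H247
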